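import Vale.Agent.Lib.P262.Three

/-!
# P262: `σ(3) ≤ √6`

Every finite sequence of vectors of the Euclidean unit ball of `ℝ³` admits signs for which all
initial sums have norm at most `√6`.
-/

namespace Vale.Agent.Results.P262.DimThreeUpper

open Vale.Agent.Lib.P262
open scoped ENNReal

theorem result :
    sigma 3 ≤ ENNReal.ofReal (Real.sqrt 6) ∧
    (∀ N : ℕ, sigmaN 3 N ≤ ENNReal.ofReal (Real.sqrt 6)) ∧
    (∀ (N : ℕ) (v : Fin N → EuclideanSpace ℝ (Fin 3)), (∀ i, ‖v i‖ ≤ 1) →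
      ∃ ε : Fin N → ℝ, (∀ i, ε i = 1 ∨ ε i = -1) ∧
        ∀ k ≤ N, ‖prefixSum v ε k‖ ≤ Real.sqrt 6) :=
  ⟨sigma_three_le, sigmaN_three_le, fun _ v hv => space_signs v hv⟩

end Vale.Agent.Results.P262.DimThreeUpper
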