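import Vale.Agent.Lib.P262.Explicit

/-!
# P262: `σ(d) ≥ √(d + 4/3)` for every `d ≥ 3`

An explicit sequence of 16 vectors of the unit ball of `ℝ^3` (with rational coordinates of
denominator `10^5`) all of whose signings have a prefix sum of squared norm at least `13/3`,
preceded by `d - 3` orthonormal vectors orthogonal to it.
-/

namespace Vale.Agent.Results.P262.LowerFourThirds

open Vale.Agent.Lib.P262
open scoped ENNReal

/-- the sixteen vectors, multiplied by `10^5` -/
def example16 : List (ℤ × ℤ × ℤ) :=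
  [(88585, 2831, -46309), (16131, 20223, 96596), (17984, -87189, 45547), (74997, 6084, -65866),
   (96417, 5994, -25841), (67080, -40235, 62300), (-97004, 239, 24274), (-71319, -4695, 69928),
   (-74437, 17492, 64444), (-73082, -25433, 63341), (-76795, 63143, -10741),
   (-86210, -25203, 43959), (-54791, -38951, 74032), (-79087, 19790, -57909),
   (-45524, 18158, 87165), (-26655, 59496, 75827)]

theorem attain16 : Attain 3 16 (13 / 3) := by
  have h := attain_of_forcesZ 100000 (by norm_num) 43333333334 example16 (by decide +kernel)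
    (by decide +kernel)
  obtain ⟨l, hl, hl1, hf⟩ := h
  exact ⟨l, hl, hl1, hf.mono (by norm_num)⟩

theorem result (d : ℕ) (hd : 3 ≤ d) :
    ENNReal.ofReal (Real.sqrt ((d : ℝ) + 4 / 3)) ≤ sigmaN d (d + 13) ∧
    ENNReal.ofReal (Real.sqrt ((d : ℝ) + 4 / 3)) ≤ sigma d := by
  have h1 : ENNReal.ofReal (Real.sqrt ((d : ℝ) + 4 / 3)) ≤ sigmaN d (d + 13) := by
    obtain ⟨j, rfl⟩ := Nat.exists_eq_add_of_le hd
    have h := attain16.lift_iter j
    have e1 : 16 + j = 3 + j + 13 := by ring
    have e2 : (13 / 3 : ℝ) + (j : ℝ) = ((3 + j : ℕ) : ℝ) + 4 / 3 := by push_cast; ring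
    rw [e1, e2] at h
    exact h.le_sigmaN
  refine ⟨h1, h1.trans ?_⟩
  unfold sigma
  exact le_iSup₂_of_le (d + 13) (by omega) le_rfl

end Vale.Agent.Results.P262.LowerFourThirds
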