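import Vale.Agent.Lib.P262.Gadget

/-!
# P262: `σ(d) ≥ √(d+1)` for every `d ≥ 2`

More precisely `σ(d,N)² ≥ d + 1 - 2^{-(N-d)}` for all `N ≥ d ≥ 2`.
-/

namespace Vale.Agent.Results.P262.LowerSqrtDPlusOne

open Vale.Agent.Lib.P262
open scoped ENNReal

theorem result (d : ℕ) (hd : 2 ≤ d) :
    (∀ N : ℕ, d ≤ N →
      ENNReal.ofReal (Real.sqrt ((d : ℝ) + 1 - (1 / 2) ^ (N - d))) ≤ sigmaN d N) ∧
    ENNReal.ofReal (Real.sqrt ((d : ℝ) + 1)) ≤ sigma d := by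
  have h1 : ∀ N : ℕ, d ≤ N →
      ENNReal.ofReal (Real.sqrt ((d : ℝ) + 1 - (1 / 2) ^ (N - d))) ≤ sigmaN d N := by
    intro N hN
    obtain ⟨j, rfl⟩ := Nat.exists_eq_add_of_le hd
    obtain ⟨m, rfl⟩ := Nat.exists_eq_add_of_le hN
    have h := (attain_plane m).lift_iter j
    have e1 : m + 2 + j = 2 + j + m := by ring
    have e2 : (3 : ℝ) - (1 / 2) ^ m + (j : ℝ) = ((2 + j : ℕ) : ℝ) + 1 - (1 / 2) ^ (2 + j + m - (2 + j)) := by
      rw [Nat.add_sub_cancel_left]; push_cast; ring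
    rw [e1, e2] at h
    exact h.le_sigmaN
  refine ⟨h1, ?_⟩
  have hlim : Filter.Tendsto
      (fun m : ℕ => ENNReal.ofReal (Real.sqrt ((d : ℝ) + 1 - (1 / 2) ^ m))) Filter.atTop
      (nhds (ENNReal.ofReal (Real.sqrt ((d : ℝ) + 1 - 0)))) := by
    refine (ENNReal.continuous_ofReal.tendsto _).comp ((Real.continuous_sqrt.tendsto _).comp ?_)
    exact tendsto_const_nhds.sub
      (tendsto_pow_atTop_nhds_zero_of_lt_one (by norm_num) (by norm_num))
  rw [sub_zero] at hlim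
  refine le_of_tendsto' hlim fun m => ?_
  have h2 := h1 (d + m) (Nat.le_add_right d m)
  rw [Nat.add_sub_cancel_left] at h2
  refine h2.trans ?_
  unfold sigma
  exact le_iSup₂_of_le (d + m) (by omega) le_rfl

end Vale.Agent.Results.P262.LowerSqrtDPlusOne
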