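import Vale.Agent.Lib.P262.Plane

/-!
# P262: `σ(2) = √3`

Every finite sequence of vectors of the Euclidean unit disc admits signs for which all initial sums
have norm at most `√3`, and `√3` cannot be improved.
-/

namespace Vale.Agent.Results.P262.PlaneExact

open Vale.Agent.Lib.P262
open scoped ENNReal

theorem result :
    sigma 2 = ENNReal.ofReal (Real.sqrt 3) ∧
    (∀ N : ℕ, sigmaN 2 N ≤ ENNReal.ofReal (Real.sqrt 3)) ∧
    (∀ (N : ℕ) (v : Fin N → EuclideanSpace ℝ (Fin 2)), (∀ i, ‖v i‖ ≤ 1) →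
      ∃ ε : Fin N → ℝ, (∀ i, ε i = 1 ∨ ε i = -1) ∧
        ∀ k ≤ N, ‖prefixSum v ε k‖ ≤ Real.sqrt 3) :=
  ⟨sigma_two_eq, sigmaN_two_le, fun _ v hv => plane_signs v hv⟩

end Vale.Agent.Results.P262.PlaneExact
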