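import Vale.Agent.Lib.P262.VecWalkSharp

/-!
# P262: vector colourings in `ℝ^d` balance all initial segments, and `d` is the least dimension

Replace the signs `ε_i ∈ {-1,1}` (the unit vectors of `ℝ^1`) by unit vectors `u_i` of `ℝ^m`, and the
vector `∑_{i<k} ε_i v_i` by the operator `∑_{i<k} v_i ⊗ u_i`.
For every infinite sequence in the unit ball of `ℝ^d` there are unit vectors of `ℝ^d` for which
all these operators are contractions; this is impossible with colours in `ℝ^m`, `m < d`.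
-/

namespace Vale.Agent.Results.P262.VectorColouringSharp

open Vale.Agent.Lib.P262.Sharp Finset
open scoped RealInnerProductSpace

lemma norm_sq_sum_smul {H : Type*} [NormedAddCommGroup H] [InnerProductSpace ℝ H]
    (s : Finset ℕ) (c : ℕ → ℝ) (u : ℕ → H) :
    ‖∑ i ∈ s, c i • u i‖ ^ 2 = ∑ i ∈ s, ∑ j ∈ s, (c i * c j) * ⟪u i, u j⟫ := by
  rw [← real_inner_self_eq_norm_sq, sum_inner]
  refine sum_congr rfl fun i _ => ?_
  rw [inner_sum]
  refine sum_congr rfl fun j _ => ?_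
  rw [inner_smul_left, inner_smul_right]
  simp [mul_assoc]

/-- `IsContr v u k`: the map `θ ↦ ∑_{i<k} ⟪θ, v i⟫ u i` from `ℝ^a` to `ℝ^b` does not increase
norms. -/
def IsContr {a b : ℕ} (v : ℕ → EuclideanSpace ℝ (Fin a)) (u : ℕ → EuclideanSpace ℝ (Fin b))
    (k : ℕ) : Prop :=
  ∀ θ : EuclideanSpace ℝ (Fin a), ‖∑ i ∈ range k, ⟪θ, v i⟫ • u i‖ ≤ ‖θ‖

/-- `tensorSq v u k = ∑_{i,j<k} ⟪v i, v j⟫ ⟪u i, u j⟫`, the squared Hilbert-Schmidt norm of
`∑_{i<k} v i ⊗ u i`. -/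
noncomputable def tensorSq {a b : ℕ} (v : ℕ → EuclideanSpace ℝ (Fin a))
    (u : ℕ → EuclideanSpace ℝ (Fin b)) (k : ℕ) : ℝ :=
  ∑ i ∈ range k, ∑ j ∈ range k, ⟪v i, v j⟫ * ⟪u i, u j⟫

/-- The standard orthonormal basis `e_0, …, e_{d-1}` of `ℝ^d`, followed by zeros. -/
noncomputable def stdSeq (d : ℕ) : ℕ → EuclideanSpace ℝ (Fin d) :=
  fun i => if h : i < d then EuclideanSpace.single ⟨i, h⟩ (1 : ℝ) else 0

lemma tensorSq_swap {a b : ℕ} (v : ℕ → EuclideanSpace ℝ (Fin a))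
    (u : ℕ → EuclideanSpace ℝ (Fin b)) (k : ℕ) : tensorSq v u k = tensorSq u v k := by
  unfold tensorSq
  exact sum_congr rfl fun i _ => sum_congr rfl fun j _ => mul_comm _ _

lemma contr_swap {a b : ℕ} {v : ℕ → EuclideanSpace ℝ (Fin a)}
    {u : ℕ → EuclideanSpace ℝ (Fin b)} {k : ℕ} (h : IsContr v u k) : IsContr u v k := by
  intro g
  set θ := ∑ i ∈ range k, ⟪g, u i⟫ • v i with hθ
  have h1 : ‖θ‖ ^ 2 = ⟪∑ i ∈ range k, ⟪θ, v i⟫ • u i, g⟫ := by
    have e1 : ⟪θ, θ⟫ = ⟪θ, ∑ i ∈ range k, ⟪g, u i⟫ • v i⟫ := by rw [← hθ]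
    rw [← real_inner_self_eq_norm_sq, e1, inner_sum, sum_inner]
    refine sum_congr rfl fun i _ => ?_
    rw [inner_smul_right, inner_smul_left, real_inner_comm g (u i)]
    simp [mul_comm]
  have h2 : ⟪∑ i ∈ range k, ⟪θ, v i⟫ • u i, g⟫ ≤ ‖θ‖ * ‖g‖ :=
    (real_inner_le_norm _ _).trans (mul_le_mul_of_nonneg_right (h θ) (norm_nonneg _))
  by_contra hlt
  have hlt := not_le.1 hlt
  have h0 : 0 ≤ ‖g‖ := norm_nonneg _
  nlinarith

lemma tensorSq_le {a b : ℕ} {v : ℕ → EuclideanSpace ℝ (Fin a)}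
    {u : ℕ → EuclideanSpace ℝ (Fin b)} {k : ℕ} (h : IsContr v u k) :
    tensorSq v u k ≤ (a : ℝ) := by
  have h1 : tensorSq v u k
      = ∑ c : Fin a, ‖∑ i ∈ range k,
          ⟪(EuclideanSpace.single c (1 : ℝ) : EuclideanSpace ℝ (Fin a)), v i⟫ • u i‖ ^ 2 := by
    have key : ∀ i j : ℕ, ⟪v i, v j⟫ = ∑ c : Fin a,
        ⟪(EuclideanSpace.single c (1 : ℝ) : EuclideanSpace ℝ (Fin a)), v i⟫ *
          ⟪(EuclideanSpace.single c (1 : ℝ) : EuclideanSpace ℝ (Fin a)), v j⟫ := by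
      intro i j
      rw [PiLp.inner_apply]
      refine sum_congr rfl fun c _ => ?_
      rw [EuclideanSpace.inner_single_left, EuclideanSpace.inner_single_left]
      simp [mul_comm]
    simp_rw [norm_sq_sum_smul]
    rw [sum_comm (s := (univ : Finset (Fin a))) (t := range k)]
    refine sum_congr rfl fun i _ => ?_
    rw [sum_comm (s := (univ : Finset (Fin a))) (t := range k)]
    refine sum_congr rfl fun j _ => ?_
    rw [key, sum_mul]
  rw [h1]
  calc ∑ c : Fin a, ‖∑ i ∈ range k,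
          ⟪(EuclideanSpace.single c (1 : ℝ) : EuclideanSpace ℝ (Fin a)), v i⟫ • u i‖ ^ 2
      ≤ ∑ c : Fin a, (1 : ℝ) := by
        refine sum_le_sum fun c _ => ?_
        have h2 := h (EuclideanSpace.single c (1 : ℝ))
        have h3 : ‖(EuclideanSpace.single c (1 : ℝ) : EuclideanSpace ℝ (Fin a))‖ = 1 := by simp
        rw [h3] at h2
        exact pow_le_one₀ (norm_nonneg _) h2
    _ = (a : ℝ) := by simp

lemma tensorSq_stdSeq (d m : ℕ) (u : ℕ → EuclideanSpace ℝ (Fin m)) (hu : ∀ i, ‖u i‖ = 1) :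
    tensorSq (stdSeq d) u d = (d : ℝ) := by
  have h1 : ∀ i ∈ range d, ∑ j ∈ range d, ⟪stdSeq d i, stdSeq d j⟫ * ⟪u i, u j⟫ = 1 := by
    intro i hi
    have hi' := mem_range.1 hi
    rw [sum_eq_single i]
    · rw [real_inner_self_eq_norm_sq, real_inner_self_eq_norm_sq, hu i]
      simp [stdSeq, hi']
    · intro j hj hji
      have hj' := mem_range.1 hj
      simp only [stdSeq, hi', hj', dif_pos]
      rw [EuclideanSpace.inner_single_left]
      simp [Ne.symm hji]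
    · intro h; exact absurd hi h
  rw [tensorSq, sum_congr rfl h1]
  simp

theorem result (d : ℕ) (hd : 1 ≤ d) :
    (∀ v : ℕ → EuclideanSpace ℝ (Fin d), (∀ i, ‖v i‖ ≤ 1) →
      ∃ u : ℕ → EuclideanSpace ℝ (Fin d), (∀ i, ‖u i‖ = 1) ∧
        ∀ k : ℕ, IsContr v u k ∧ IsContr u v k ∧ tensorSq v u k ≤ (d : ℝ)) ∧
    (∀ m : ℕ, m < d → ∀ u : ℕ → EuclideanSpace ℝ (Fin m), (∀ i, ‖u i‖ = 1) →
      ¬ IsContr (stdSeq d) u d) ∧
    (∀ (m : ℕ) (u : ℕ → EuclideanSpace ℝ (Fin m)), (∀ i, ‖u i‖ = 1) →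
      tensorSq (stdSeq d) u d = (d : ℝ)) ∧
    (∀ (m : ℕ) (v : ℕ → EuclideanSpace ℝ (Fin d)) (ε : ℕ → ℝ) (w : EuclideanSpace ℝ (Fin m)),
      ‖w‖ = 1 → ∀ k : ℕ, tensorSq v (fun i => ε i • w) k = ‖∑ i ∈ range k, ε i • v i‖ ^ 2) := by
  refine ⟨?_, ?_, tensorSq_stdSeq d, ?_⟩
  · intro v hv
    obtain ⟨c, hc⟩ := exists_good (E := EuclideanSpace ℝ (Fin d))
      (H := EuclideanSpace ℝ (Fin d)) le_rfl (by simp; omega) v hv
    have hop : ∀ k, IsContr v (col c) k := fun k θ => norm_op_le hc k θ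
    exact ⟨col c, norm_col hc, fun k => ⟨hop k, contr_swap (hop k), tensorSq_le (hop k)⟩⟩
  · intro m hm u hu h
    have h1 := tensorSq_le (contr_swap h)
    rw [← tensorSq_swap, tensorSq_stdSeq d m u hu] at h1
    have : d ≤ m := by exact_mod_cast h1
    omega
  · intro m v ε w hw k
    rw [norm_sq_sum_smul]
    refine sum_congr rfl fun i _ => sum_congr rfl fun j _ => ?_
    rw [inner_smul_left, inner_smul_right, real_inner_self_eq_norm_sq, hw]
    simp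
    ring

end Vale.Agent.Results.P262.VectorColouringSharp
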