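import Vale.Agent.Results.P262.DimFourUpper
import Vale.Agent.Results.P262.DimThreeUpper
import Vale.Agent.Results.P262.LowerFourThirds
import Vale.Agent.Results.P262.LowerSqrtDPlusOne
import Vale.Agent.Results.P262.PlaneExact
import Vale.Agent.Results.P262.VectorColouringSharp

/-!
# P262: the results on `σ(d)` in one statement

(1) `σ(2) = √3`; (1') `σ(3) ≤ √6`, `σ(4) ≤ √10`, `S₂(4) ≤ √10`; (2) `σ(d) ≥ √(d+1)` for `d ≥ 2`; (3) `σ(d) ≥ √(d+4/3)` for `d ≥ 3`;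
(4) vector colourings in `ℝ^d` balance all initial segments, and `d` is the least dimension.
-/

namespace Vale.Agent.Results.P262.A_Combined

open Vale.Agent.Lib.P262 Finset
open Vale.Agent.Results.P262.VectorColouringSharp (IsContr tensorSq stdSeq)
open scoped ENNReal RealInnerProductSpace

theorem result :
    (sigma 2 = ENNReal.ofReal (Real.sqrt 3) ∧
      (∀ N : ℕ, sigmaN 2 N ≤ ENNReal.ofReal (Real.sqrt 3)) ∧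
      (∀ (N : ℕ) (v : Fin N → EuclideanSpace ℝ (Fin 2)), (∀ i, ‖v i‖ ≤ 1) →
        ∃ ε : Fin N → ℝ, (∀ i, ε i = 1 ∨ ε i = -1) ∧
          ∀ k ≤ N, ‖prefixSum v ε k‖ ≤ Real.sqrt 3)) ∧
    (sigma 3 ≤ ENNReal.ofReal (Real.sqrt 6) ∧
      (∀ N : ℕ, sigmaN 3 N ≤ ENNReal.ofReal (Real.sqrt 6)) ∧
      (∀ (N : ℕ) (v : Fin N → EuclideanSpace ℝ (Fin 3)), (∀ i, ‖v i‖ ≤ 1) →
        ∃ ε : Fin N → ℝ, (∀ i, ε i = 1 ∨ ε i = -1) ∧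
          ∀ k ≤ N, ‖prefixSum v ε k‖ ≤ Real.sqrt 6)) ∧
    (sigma 4 ≤ ENNReal.ofReal (Real.sqrt 10) ∧
      (∀ N : ℕ, sigmaN 4 N ≤ ENNReal.ofReal (Real.sqrt 10)) ∧
      (∀ (N : ℕ) (v : Fin N → EuclideanSpace ℝ (Fin 4)), (∀ i, ‖v i‖ ≤ 1) →
        ∃ ε : Fin N → ℝ, (∀ i, ε i = 1 ∨ ε i = -1) ∧
          ∀ k ≤ N, ‖prefixSum v ε k‖ ≤ Real.sqrt 10) ∧
      (∀ l : List (EuclideanSpace ℝ (Fin 4)), (∀ x ∈ l, ‖x‖ ≤ 1) → l.sum = 0 →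
        ∃ l' : List (EuclideanSpace ℝ (Fin 4)), l'.Perm l ∧
          ∀ k : ℕ, ‖(l'.take k).sum‖ ≤ Real.sqrt 10) ∧
      Real.sqrt 10 < 4 - 1 + 1 / 4) ∧
    (∀ d : ℕ, 2 ≤ d →
      (∀ N : ℕ, d ≤ N →
        ENNReal.ofReal (Real.sqrt ((d : ℝ) + 1 - (1 / 2) ^ (N - d))) ≤ sigmaN d N) ∧
      ENNReal.ofReal (Real.sqrt ((d : ℝ) + 1)) ≤ sigma d) ∧
    (∀ d : ℕ, 3 ≤ d →
      ENNReal.ofReal (Real.sqrt ((d : ℝ) + 4 / 3)) ≤ sigmaN d (d + 13) ∧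
      ENNReal.ofReal (Real.sqrt ((d : ℝ) + 4 / 3)) ≤ sigma d) ∧
    (∀ d : ℕ, 1 ≤ d →
      (∀ v : ℕ → EuclideanSpace ℝ (Fin d), (∀ i, ‖v i‖ ≤ 1) →
        ∃ u : ℕ → EuclideanSpace ℝ (Fin d), (∀ i, ‖u i‖ = 1) ∧
          ∀ k : ℕ, IsContr v u k ∧ IsContr u v k ∧ tensorSq v u k ≤ (d : ℝ)) ∧
      (∀ m : ℕ, m < d → ∀ u : ℕ → EuclideanSpace ℝ (Fin m), (∀ i, ‖u i‖ = 1) →
        ¬ IsContr (stdSeq d) u d) ∧
      (∀ (m : ℕ) (u : ℕ → EuclideanSpace ℝ (Fin m)), (∀ i, ‖u i‖ = 1) →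
        tensorSq (stdSeq d) u d = (d : ℝ)) ∧
      (∀ (m : ℕ) (v : ℕ → EuclideanSpace ℝ (Fin d)) (ε : ℕ → ℝ) (w : EuclideanSpace ℝ (Fin m)),
        ‖w‖ = 1 → ∀ k : ℕ, tensorSq v (fun i => ε i • w) k = ‖∑ i ∈ range k, ε i • v i‖ ^ 2)) :=
  ⟨PlaneExact.result, DimThreeUpper.result, DimFourUpper.result, LowerSqrtDPlusOne.result, LowerFourThirds.result,
    VectorColouringSharp.result⟩

end Vale.Agent.Results.P262.A_Combined
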