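import Vale.Agent.Lib.P262.Steinitz

/-!
# P262: `σ(4) ≤ √10` and `S₂(4) ≤ √10 < 13/4`

Every finite sequence of vectors of the Euclidean unit ball of `ℝ⁴` admits signs for which all
initial sums have norm at most `√10`; every finite zero-sum family in that ball can be ordered so
that all initial sums have norm at most `√10`.
-/

namespace Vale.Agent.Results.P262.DimFourUpper

open Vale.Agent.Lib.P262
open scoped ENNReal

theorem result :
    sigma 4 ≤ ENNReal.ofReal (Real.sqrt 10) ∧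
    (∀ N : ℕ, sigmaN 4 N ≤ ENNReal.ofReal (Real.sqrt 10)) ∧
    (∀ (N : ℕ) (v : Fin N → EuclideanSpace ℝ (Fin 4)), (∀ i, ‖v i‖ ≤ 1) →
      ∃ ε : Fin N → ℝ, (∀ i, ε i = 1 ∨ ε i = -1) ∧
        ∀ k ≤ N, ‖prefixSum v ε k‖ ≤ Real.sqrt 10) ∧
    (∀ l : List (EuclideanSpace ℝ (Fin 4)), (∀ x ∈ l, ‖x‖ ≤ 1) → l.sum = 0 →
      ∃ l' : List (EuclideanSpace ℝ (Fin 4)), l'.Perm l ∧
        ∀ k : ℕ, ‖(l'.take k).sum‖ ≤ Real.sqrt 10) ∧
    Real.sqrt 10 < 4 - 1 + 1 / 4 :=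
  ⟨sigma_four_le, sigmaN_four_le, fun _ v hv => four_signs v hv, steinitz_four, sqrt_ten_lt⟩

end Vale.Agent.Results.P262.DimFourUpper
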